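import Vale.Agent.P140.Compare
import Vale.Agent.P140.Corollaries
import Vale.Agent.P140.Example
import Vale.Agent.P140.HomAll
import Vale.Agent.P140.HomTruncated

/-!
# P140: weak-strong uniqueness and uniqueness for two classes of data

Every renormalized solution agrees with every strong solution of the same datum; so data below a
Maxwellian have at most one renormalized solution for a short time, and every homogeneous datum has
at most one for all times.
-/

namespace Vale.Agent.Results.P140.WeakStrong

open MeasureTheory Set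
open Vale.Agent.P140

theorem result :
    (∀ (T : ℝ) (F₀ : Phase → ℝ) (F g : ℝ → Phase → ℝ), RenSolution F₀ F → StrongSolution T F₀ g →
        ∀ t ∈ Icc 0 T, F t =ᵐ[volume] g t) ∧
    (∀ C a : ℝ, 0 < a → ∃ T : ℝ, 0 < T ∧
        ∀ F₀ : Phase → ℝ, (∀ᵐ z, F₀ z ≤ C * Real.exp (-(a * ‖z.2‖ ^ 2))) →
          ∀ F G, RenSolution F₀ F → RenSolution F₀ G → ∀ t ∈ Icc 0 T, F t =ᵐ[volume] G t) ∧
    (∀ (f : Vel → ℝ) (F G : ℝ → Phase → ℝ), RenSolution (fun z => f z.2) F →
        RenSolution (fun z => f z.2) G → ∀ t, 0 ≤ t → F t =ᵐ[volume] G t) ∧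
    RenSolution (fun z => stdMax z.2) (fun _ z => stdMax z.2) :=
  ⟨weakStrong, unique_local weakStrong, unique_homogeneous_all truncatedOut, maxwellian_renSolution⟩

end Vale.Agent.Results.P140.WeakStrong
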